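import Crest.Agent.H1Sens.Tour
import Crest.Prelude.Def_Sensitivity

set_option autoImplicit false
set_option linter.unusedSectionVars false

namespace Crest.Agent.H1Sens

open Finset Classical

def Sens {ι : Type} [Fintype ι] (f : (ι → Bool) → Bool) (s : ℕ) : Prop :=
  ∀ x, (univ.filter fun i => f (fl x i) ≠ f x).card ≤ s

def Gad (s β : ℕ) : Prop :=
  ∃ (ι κ : Type) (_ : Fintype ι) (_ : Fintype κ) (lab : ι → κ) (f : (ι → Bool) → Bool),
    Fintype.card κ = β ∧ f (fun _ => false) = false ∧ (∀ j, f (blk lab j) = true) ∧ Sens f s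

theorem Good.gad {a b w n β : ℕ} (h : Good 0 a b w n β) (q : ℕ) (hq : b ≤ q * a) :
    Gad (q * a) (q * β) := by
  obtain ⟨ι, κ, _, _, lab, P, -, rfl, -, h0, hb, ha, hb1, -⟩ := h
  refine ⟨Fin q × ι, Fin q × κ, inferInstance, inferInstance, fun p => (p.1, lab p.2),
    fun x => decide (∃ c, P 0 (sub x c)), by simp, ?_, ?_, ?_⟩
  · simp only [decide_eq_false_iff_not]
    rintro ⟨c, hc⟩
    exact h0 hc
  · rintro ⟨c, j⟩
    simp only [decide_eq_true_eq]
    exact ⟨c, by rw [sub_blk_self]; exact hb j⟩
  · intro x
    by_cases hx : ∃ c, P 0 (sub x c)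
    · obtain ⟨c, hc⟩ := hx
      refine le_trans (card_le_of_unique _ b fun p hp => ⟨_, hb1 _ hc, fun u hu => ?_⟩) hq
      have key : ∀ v : Fin q × ι, decide (∃ c, P 0 (sub (fl x v) c)) ≠ decide (∃ c, P 0 (sub x c)) →
          v.1 = c ∧ ¬ P 0 (fl (sub x c) v.2) := by
        rintro ⟨c', a'⟩ hv
        have h1 : ¬ P 0 (sub (fl x (c', a')) c) := fun hh => hv (by
          rw [decide_eq_true ⟨c, hh⟩, decide_eq_true ⟨c, hc⟩])
        by_cases hcc : c = c'
        · subst hcc; rw [sub_fl_self] at h1; exact ⟨rfl, h1⟩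
        · rw [sub_fl_ne _ _ hcc] at h1; exact absurd hc h1
      simp only [mem_filter, mem_univ, true_and] at hp hu ⊢
      exact ⟨(key u hu).1.trans (key p hp).1.symm, (key u hu).2⟩
    · refine (card_le_sum _ (fun _ => a) fun c => ?_).trans (by simp)
      refine le_trans (card_le_card fun i hi => ?_) (ha (sub x c) fun hh => hx ⟨c, hh⟩)
      simp only [mem_filter, mem_univ, true_and] at hi ⊢
      by_contra hn
      apply hi
      rw [decide_eq_false hx, decide_eq_false]
      rintro ⟨c', hc'⟩
      by_cases hcc : c' = c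
      · subst hcc; rw [sub_fl_self] at hc'; exact hn hc'
      · rw [sub_fl_ne _ _ hcc] at hc'; exact hx ⟨c', hc'⟩

theorem Gad.comp {s β s' β' : ℕ} (h : Gad s β) (h' : Gad s' β') : Gad (s * s') (β * β') := by
  obtain ⟨ι, κ, _, _, lab, f, rfl, h0, hb, hs⟩ := h
  obtain ⟨ι', κ', _, _, lab', f', rfl, h0', hb', hs'⟩ := h'
  refine ⟨ι × ι', κ × κ', inferInstance, inferInstance, fun p => (lab p.1, lab' p.2),
    fun x => f fun c => f' (sub x c), by simp, ?_, ?_, ?_⟩
  · have : (fun c : ι => f' (sub (fun _ : ι × ι' => false) c)) = fun _ => false := by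
      funext c; exact h0'
    simp only [this, h0]
  · rintro ⟨j, j'⟩
    have : (fun c : ι => f' (sub (blk (fun p : ι × ι' => (lab p.1, lab' p.2)) (j, j')) c)) =
        blk lab j := by
      funext c
      by_cases hc : lab c = j
      · have : sub (blk (fun p : ι × ι' => (lab p.1, lab' p.2)) (j, j')) c = blk lab' j' := by
          funext a; simp [sub, blk, hc]
        rw [this, hb']; simp [blk, hc]
      · have : sub (blk (fun p : ι × ι' => (lab p.1, lab' p.2)) (j, j')) c = fun _ => false := by
          funext a; simp [sub, blk, hc]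
        rw [this, h0']; simp [blk, hc]
    simp only [this, hb]
  · intro x
    set y : ι → Bool := fun c => f' (sub x c) with hy
    refine (card_le_sum _ (fun c => if f (fl y c) ≠ f y then s' else 0) fun c => ?_).trans ?_
    · have key : ∀ a, (f fun c' => f' (sub (fl x (c, a)) c')) ≠ f y →
          f' (fl (sub x c) a) ≠ f' (sub x c) ∧ f (fl y c) ≠ f y := by
        intro a ha
        have h1 : f' (fl (sub x c) a) ≠ f' (sub x c) := by
          intro hh
          apply ha
          congr 1
          funext c'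
          by_cases hcc : c' = c
          · subst hcc; rw [sub_fl_self, hh]
          · rw [sub_fl_ne _ _ hcc]
        refine ⟨h1, fun hh => ha ?_⟩
        rw [← hh]
        congr 1
        funext c'
        by_cases hcc : c' = c
        · subst hcc
          rw [sub_fl_self, fl_self]
          revert h1
          simp only [hy]
          cases f' (fl (sub x c') a) <;> cases f' (sub x c') <;> simp
        · rw [sub_fl_ne _ _ hcc, fl_ne _ hcc]
      split_ifs with hc
      · refine le_trans (card_le_card fun a ha => ?_) (hs' (sub x c))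
        simp only [mem_filter, mem_univ, true_and] at ha ⊢
        exact (key a ha).1
      · rw [Nat.le_zero, card_eq_zero, eq_empty_iff_forall_notMem]
        intro a ha
        simp only [mem_filter, mem_univ, true_and] at ha
        exact hc (key a ha).2
    · rw [← sum_filter]
      simp only [sum_const, smul_eq_mul]
      exact Nat.mul_le_mul_right _ (hs y)

theorem Gad.pow {s β : ℕ} (h : Gad s β) (j : ℕ) : Gad (s ^ (j + 1)) (β ^ (j + 1)) := by
  induction j with
  | zero => simpa using h
  | succ j ih => rw [pow_succ s, pow_succ β]; exact ih.comp h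

theorem exists_gad : ∃ s β, Gad s β ∧ 2 ≤ s ∧ s * s < β := by
  obtain ⟨a, b, w, n, β, hg, ha, hβ⟩ := exists_good
  have h1 : b ≤ (b / a + 1) * a := by
    have := Nat.lt_div_mul_add (a := b) (b := a) (by omega)
    nlinarith
  have h2 : (b / a + 1) * a ≤ a + b := by
    have := Nat.div_mul_le_self b a
    nlinarith
  refine ⟨_, _, hg.gad (b / a + 1) h1, by nlinarith [Nat.zero_le (b / a)], ?_⟩
  have h3 : (b / a + 1) * a * a < β := lt_of_le_of_lt (Nat.mul_le_mul_right _ h2) hβ
  calc (b / a + 1) * a * ((b / a + 1) * a) = (b / a + 1) * ((b / a + 1) * a * a) := by ring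
    _ < (b / a + 1) * β := Nat.mul_lt_mul_of_pos_left h3 (Nat.succ_pos _)

open Crest.BoolCube in
theorem Gad.transfer {s β : ℕ} (h : Gad s β) (hβ : 0 < β) :
    ∃ (n : ℕ) (f : (Fin n → Bool) → Bool), (∃ x y, f x ≠ f y) ∧ β ≤ blockSensitivity f ∧
      sensitivity f ≤ s := by
  obtain ⟨ι, κ, _, _, lab, f, rfl, h0, hb, hs⟩ := h
  let e := Fintype.equivFin ι
  let ek := Fintype.equivFin κ
  let B : Fin (Fintype.card κ) → Finset (Fin (Fintype.card ι)) :=
    fun j => univ.filter fun a => lab (e.symm a) = ek.symm j
  have hB : ∀ j, (fun i => flipCoords (fun _ => false) (B j) (e i)) = blk lab (ek.symm j) := by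
    intro j
    funext i
    simp [flipCoords, B, blk]
  refine ⟨Fintype.card ι, fun y => f fun i => y (e i), ?_, ?_, ?_⟩
  · refine ⟨flipCoords (fun _ => false) (B ⟨0, hβ⟩), fun _ => false, ?_⟩
    simp only [hB, hb, h0]
    simp
  · refine le_trans ?_ (le_sup (f := blockSensitivityAt _) (mem_univ fun _ => false))
    refine le_csSup ⟨Fintype.card ι, ?_⟩ ⟨B, fun j => ?_, fun i j hij => ?_, fun j => ?_⟩
    · rintro m ⟨C, h1, h2, -⟩
      choose g hg using h1
      have : Function.Injective g := fun i j hij => by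
        by_contra hne
        exact disjoint_left.1 (h2 i j hne) (hg i) (hij ▸ hg j)
      simpa using Fintype.card_le_of_injective g this
    · rw [nonempty_iff_ne_empty]
      intro hemp
      have h1 := hB j
      have h2 := hb (ek.symm j)
      rw [← h1, hemp] at h2
      have h3 : (fun i : ι => flipCoords (fun _ => false) ∅ (e i)) = fun _ => false := by
        funext i; simp [flipCoords]
      rw [h3, h0] at h2
      exact absurd h2 (by simp)
    · rw [disjoint_left]
      intro a ha hb
      simp only [B, mem_filter, mem_univ, true_and] at ha hb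
      exact hij (ek.symm.injective (ha.symm.trans hb))
    · simp only [hB, hb, h0]
      simp
  · refine Finset.sup_le fun y _ => ?_
    refine le_trans ?_ (hs fun i => y (e i))
    refine card_le_card_of_injOn e.symm (fun a ha => ?_) e.symm.injective.injOn
    simp only [coe_filter, mem_univ, true_and, Set.mem_ofPred_eq] at ha ⊢
    convert ha using 2
    funext i
    by_cases hi : i = e.symm a
    · subst hi; simp [fl_self, flipCoords]
    · have : e i ≠ a := fun hh => hi (by rw [← hh]; simp)
      simp [fl_ne _ hi, flipCoords, this]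

open Crest.BoolCube in
theorem main : ∃ α : ℝ, 2 < α ∧ ∀ N : ℕ, ∃ (n : ℕ) (f : (Fin n → Bool) → Bool),
      (∃ x y, f x ≠ f y) ∧ N ≤ blockSensitivity f ∧
        (sensitivity f : ℝ) ^ α ≤ (blockSensitivity f : ℝ) := by
  obtain ⟨s, β, hg, hs, hβ⟩ := exists_gad
  have hs' : (2 : ℝ) ≤ s := by exact_mod_cast hs
  have hβ' : (s : ℝ) * s < β := by exact_mod_cast hβ
  have hβ2 : 2 ≤ β := by nlinarith
  have hlog : 0 < Real.log s := Real.log_pos (by linarith)
  have hβpos : (0 : ℝ) < β := by nlinarith
  have hα : 2 < Real.log β / Real.log s := by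
    rw [lt_div_iff₀ hlog]
    have := Real.log_lt_log (by positivity) hβ'
    rw [Real.log_mul (by positivity) (by positivity)] at this
    linarith
  refine ⟨Real.log β / Real.log s, hα, fun N => ?_⟩
  obtain ⟨n, f, h1, h2, h3⟩ := (hg.pow N).transfer (by positivity)
  refine ⟨n, f, h1, ?_, ?_⟩
  · refine le_trans ?_ h2
    have := Nat.lt_pow_self (n := N + 1) (a := β) (by omega)
    omega
  · have h4 : (sensitivity f : ℝ) ≤ (s : ℝ) ^ (N + 1) := by exact_mod_cast h3
    have h5 : (β : ℝ) ^ (N + 1) ≤ blockSensitivity f := by exact_mod_cast h2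
    have h6 : (s : ℝ) ^ (Real.log β / Real.log s) = β := by
      rw [Real.rpow_def_of_pos (by linarith), mul_div_cancel₀ _ hlog.ne', Real.exp_log hβpos]
    refine le_trans (Real.rpow_le_rpow (by positivity) h4 (by linarith)) (le_trans ?_ h5)
    rw [← Real.rpow_natCast, ← Real.rpow_mul (by linarith), mul_comm, Real.rpow_mul (by linarith),
      h6, Real.rpow_natCast]

end Crest.Agent.H1Sens
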