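import Mathlib

set_option autoImplicit false
set_option linter.unusedSectionVars false

namespace Crest.Agent.H1Sens

open Finset Classical

section basic
variable {ι : Type} [Fintype ι]

noncomputable def fl {ι : Type} (x : ι → Bool) (a : ι) : ι → Bool :=
  fun i => if i = a then !x i else x i

theorem fl_self {ι : Type} (x : ι → Bool) (a : ι) : fl x a a = !x a := if_pos rfl

theorem fl_ne {ι : Type} (x : ι → Bool) {a i : ι} (h : i ≠ a) : fl x a i = x i := if_neg h

theorem fl_fl {ι : Type} (x : ι → Bool) (a : ι) : fl (fl x a) a = x := by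
  funext i
  by_cases h : i = a
  · subst h; simp [fl_self]
  · simp [fl_ne _ h]

def S0 (P : (ι → Bool) → Prop) (a : ℕ) : Prop :=
  ∀ x, ¬ P x → (univ.filter fun i => P (fl x i)).card ≤ a

def S1 (P : (ι → Bool) → Prop) (b : ℕ) : Prop :=
  ∀ x, P x → (univ.filter fun i => ¬ P (fl x i)).card ≤ b

theorem S0_triv (P : (ι → Bool) → Prop) : S0 P (Fintype.card ι) :=
  fun _ _ => card_le_univ _

theorem S1_triv (P : (ι → Bool) → Prop) : S1 P (Fintype.card ι) :=
  fun _ _ => card_le_univ _

noncomputable def blk {κ : Type} (lab : ι → κ) (j : κ) : ι → Bool := fun a => decide (lab a = j)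

variable {γ : Type} [Fintype γ]

def sub (x : γ × ι → Bool) (c : γ) : ι → Bool := fun a => x (c, a)

theorem sub_fl_self (x : γ × ι → Bool) (c : γ) (a : ι) : sub (fl x (c, a)) c = fl (sub x c) a := by
  funext i
  by_cases h : i = a
  · subst h; simp [fl_self, sub]
  · have : (c, i) ≠ (c, a) := by simpa using h
    simp [sub, fl_ne _ h, fl_ne _ this]

theorem sub_fl_ne (x : γ × ι → Bool) {c j : γ} (a : ι) (h : j ≠ c) :
    sub (fl x (c, a)) j = sub x j := by
  funext i
  have : (j, i) ≠ (c, a) := by simp [h]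
  simp [sub, fl_ne _ this]

theorem card_le_sum (T : Finset (γ × ι)) (g : γ → ℕ)
    (h : ∀ c, (univ.filter fun a => (c, a) ∈ T).card ≤ g c) : T.card ≤ ∑ c, g c := by
  have : T ⊆ univ.biUnion fun c => (univ.filter fun a => (c, a) ∈ T).image fun a => (c, a) := by
    rintro ⟨c, a⟩ hp
    simp only [mem_biUnion, mem_univ, mem_image, mem_filter, true_and]
    exact ⟨c, a, hp, rfl⟩
  refine (card_le_card this).trans (card_biUnion_le.trans (sum_le_sum fun c _ => ?_))
  exact card_image_le.trans (h c)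

theorem card_le_of_unique (T : Finset (γ × ι)) (w : ℕ)
    (h : ∀ p ∈ T, ∃ S : Finset ι, S.card ≤ w ∧ ∀ q ∈ T, q.1 = p.1 ∧ q.2 ∈ S) : T.card ≤ w := by
  rcases T.eq_empty_or_nonempty with rfl | ⟨p, hp⟩
  · simp
  · obtain ⟨S, hS, h2⟩ := h p hp
    have : T ⊆ S.image fun a => (p.1, a) := by
      intro q hq
      obtain ⟨h3, h4⟩ := h2 q hq
      exact mem_image.2 ⟨q.2, h4, by rw [← h3]⟩
    exact (card_le_card this).trans (card_image_le.trans hS)

end basic

theorem exists_tournament (r : ℕ) : ∃ E : Fin (2 * r + 1) → Fin (2 * r + 1) → Prop,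
    (∀ i, ¬ E i i) ∧ (∀ i j, i ≠ j → E i j ∨ E j i) ∧
      ∀ i, (univ.filter fun j => E i j).card ≤ r := by
  refine ⟨fun i j => (i.1 < j.1 ∧ j.1 - i.1 ≤ r) ∨ (j.1 < i.1 ∧ r < i.1 - j.1), ?_, ?_, ?_⟩
  · intro i h; omega
  · intro i j h
    have : i.1 ≠ j.1 := fun h' => h (Fin.ext h')
    omega
  · intro i
    have : (Icc 1 r).card = r := by simp
    refine le_of_le_of_eq ?_ this
    refine card_le_card_of_injOn
      (fun j => if i.1 < j.1 then j.1 - i.1 else j.1 + (2 * r + 1) - i.1) ?_ ?_
    · intro j hj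
      have h1 := i.2
      have h2 := j.2
      simp only [coe_filter, mem_univ, true_and, Set.mem_setOf_eq] at hj
      simp only [coe_Icc, Set.mem_Icc]
      split_ifs <;> omega
    · intro j hj j' hj' h
      have h1 := i.2
      have h2 := j.2
      have h3 := j'.2
      simp only [coe_filter, mem_univ, true_and, Set.mem_setOf_eq] at hj hj'
      apply Fin.ext
      simp only at h
      split_ifs at h <;> omega

structure Chain {ι : Type} (P : ℤ → (ι → Bool) → Prop) : Prop where
  mono : ∀ t x, P (t + 1) x → P t x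
  gap : ∀ t x a, P (t + 1) x → P t (fl x a)

theorem Chain.le {ι : Type} {P : ℤ → (ι → Bool) → Prop} (h : Chain P) {s t : ℤ} (hst : s ≤ t)
    {x : ι → Bool} (hx : P t x) : P s x := by
  induction t, hst using Int.leInduction with
  | base => exact hx
  | succ n _ ih => exact ih (h.mono _ _ hx)

section tour
variable {ι γ : Type} [Fintype ι] [Fintype γ]

def tour (E : γ → γ → Prop) (P : ℤ → (ι → Bool) → Prop) (t : ℤ) (x : γ × ι → Bool) : Prop :=
  ∃ i, P (t + 1) (sub x i) ∧ ∀ j, E i j → ¬ P (-t) (sub x j)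

variable {E : γ → γ → Prop} {P : ℤ → (ι → Bool) → Prop}

theorem tour_chain (h : Chain P) : Chain (tour E P) := by
  constructor
  · rintro t x ⟨i, h1, h2⟩
    exact ⟨i, h.mono _ _ h1, fun j hj h3 => h2 j hj (h.le (by omega) h3)⟩
  · rintro t x ⟨c, a⟩ ⟨i, h1, h2⟩
    refine ⟨i, ?_, fun j hj h3 => h2 j hj ?_⟩
    · by_cases hc : i = c
      · subst hc; rw [sub_fl_self]; exact h.gap _ _ _ h1
      · rw [sub_fl_ne _ _ hc]; exact h.mono _ _ h1
    · by_cases hc : j = c
      · subst hc
        rw [sub_fl_self] at h3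
        have := h.gap (-(t + 1)) _ a (by simpa using h3)
        rwa [fl_fl] at this
      · rw [sub_fl_ne _ _ hc] at h3; exact h.le (by omega) h3

theorem tour_S1 (hirr : ∀ i, ¬ E i i) {r a : ℕ} (hdeg : ∀ i, (univ.filter fun j => E i j).card ≤ r)
    (ha : S0 (P 0) a) : S1 (tour E P 0) (Fintype.card ι + r * a) := by
  rintro x ⟨i, h1, h2⟩
  refine (card_le_sum _ (fun c => (if c = i then Fintype.card ι else 0) + if E i c then a else 0)
    fun c => ?_).trans ?_
  · by_cases hc : c = i
    · simp only [hc, if_true]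
      exact (card_le_univ _).trans (Nat.le_add_right _ _)
    · by_cases hE : E i c
      · simp only [hc, hE, if_true, if_false, zero_add]
        refine le_trans (card_le_card fun b hb => ?_) (ha (sub x c) (by simpa using h2 c hE))
        simp only [mem_filter, mem_univ, true_and] at hb ⊢
        by_contra hn
        refine hb ⟨i, by rwa [sub_fl_ne _ _ (Ne.symm hc)], fun j hj => ?_⟩
        by_cases hjc : j = c
        · subst hjc; rw [sub_fl_self]; simpa using hn
        · rw [sub_fl_ne _ _ hjc]; exact h2 j hj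
      · simp only [hc, hE, if_false, add_zero, Nat.le_zero, card_eq_zero]
        rw [eq_empty_iff_forall_notMem]
        intro b hb
        simp only [mem_filter, mem_univ, true_and] at hb
        refine hb ⟨i, by rwa [sub_fl_ne _ _ (Ne.symm hc)], fun j hj => ?_⟩
        rw [sub_fl_ne _ _ (fun hjc : j = c => hE (hjc ▸ hj))]
        exact h2 j hj
  · rw [sum_add_distrib, sum_ite_eq', ← sum_filter]
    simp only [mem_univ, if_true, sum_const, smul_eq_mul]
    exact Nat.add_le_add_left (Nat.mul_le_mul_right _ (hdeg i)) _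

theorem tour_S0 (h : Chain P) (hirr : ∀ i, ¬ E i i) (htot : ∀ i j, i ≠ j → E i j ∨ E j i)
    {t : ℤ} (ht : 0 ≤ t) {w b : ℕ} (hw : S0 (P (t + 1)) w) (hb : S1 (P (-t)) b) :
    S0 (tour E P t) (w + b) := by
  intro x hx
  set TA : Finset (γ × ι) := univ.filter fun p => P (t + 1) (fl (sub x p.1) p.2) ∧
    ∀ j, E p.1 j → ¬ P (-t) (sub x j) with hTA
  set TB : Finset (γ × ι) := univ.filter fun p => P (-t) (sub x p.1) ∧
    ¬ P (-t) (fl (sub x p.1) p.2) ∧ ∃ i, P (t + 1) (sub x i) ∧ E i p.1 ∧
      ∀ j, E i j → j ≠ p.1 → ¬ P (-t) (sub x j) with hTB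
  have hsub : (univ.filter fun p => tour E P t (fl x p)) ⊆ TA ∪ TB := by
    rintro ⟨c, a⟩ hp
    simp only [mem_filter, mem_univ, true_and] at hp
    obtain ⟨i, h1, h2⟩ := hp
    rw [mem_union]
    by_cases hc : i = c
    · subst hc
      left
      rw [sub_fl_self] at h1
      simp only [hTA, mem_filter, mem_univ, true_and]
      refine ⟨h1, fun j hj => ?_⟩
      have := h2 j hj
      rwa [sub_fl_ne _ _ (fun hh : j = i => hirr i (hh ▸ hj))] at this
    · right
      rw [sub_fl_ne _ _ hc] at h1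
      have h3 : ∀ j, E i j → j ≠ c → ¬ P (-t) (sub x j) := fun j hj hjc => by
        have := h2 j hj
        rwa [sub_fl_ne _ _ hjc] at this
      have h4 : E i c ∧ P (-t) (sub x c) := by
        by_contra hn
        refine hx ⟨i, h1, fun j hj hP => ?_⟩
        by_cases hjc : j = c
        · subst hjc; exact hn ⟨hj, hP⟩
        · exact h3 j hj hjc hP
      simp only [hTB, mem_filter, mem_univ, true_and]
      refine ⟨h4.2, ?_, i, h1, h4.1, h3⟩
      have := h2 c h4.1
      rwa [sub_fl_self] at this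
  refine (card_le_card hsub).trans ((card_union_le _ _).trans (Nat.add_le_add ?_ ?_))
  · refine card_le_of_unique _ _ fun p hp => ?_
    simp only [hTA, mem_filter, mem_univ, true_and] at hp
    refine ⟨_, hw (sub x p.1) fun hh => hx ⟨p.1, hh, hp.2⟩, fun q hq => ?_⟩
    simp only [hTA, mem_filter, mem_univ, true_and] at hq
    have key : ∀ u : γ × ι, P (t + 1) (fl (sub x u.1) u.2) → P (-t) (sub x u.1) := fun u hu => by
      have := h.gap _ _ u.2 hu
      rw [fl_fl] at this
      exact h.le (by omega) this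
    have e : q.1 = p.1 := by
      by_contra hne
      rcases htot _ _ hne with hE | hE
      · exact hq.2 _ hE (key p hp.1)
      · exact hp.2 _ hE (key q hq.1)
    refine ⟨e, ?_⟩
    simp only [mem_filter, mem_univ, true_and]
    rw [← e]; exact hq.1
  · refine card_le_of_unique _ _ fun p hp => ?_
    simp only [hTB, mem_filter, mem_univ, true_and] at hp
    refine ⟨_, hb (sub x p.1) hp.1, fun q hq => ?_⟩
    simp only [hTB, mem_filter, mem_univ, true_and] at hq
    obtain ⟨p1, p2, i, p3, p4, p5⟩ := hp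
    obtain ⟨q1, q2, i', q3, q4, q5⟩ := hq
    have key : ∀ u : γ × ι, ¬ P (-t) (fl (sub x u.1) u.2) → ¬ P (t + 1) (sub x u.1) :=
      fun u hu hh => hu (h.gap _ _ _ (h.le (by omega) hh))
    have e0 : i = i' := by
      by_contra hne
      rcases htot _ _ hne with hE | hE
      · refine p5 _ hE (fun hh => key p p2 (hh ▸ q3)) (h.le (by omega) q3)
      · refine q5 _ hE (fun hh => key q q2 (hh ▸ p3)) (h.le (by omega) p3)
    subst e0
    have e : q.1 = p.1 := by
      by_contra hne
      exact p5 _ q4 hne q1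
    refine ⟨e, ?_⟩
    simp only [mem_filter, mem_univ, true_and]
    rw [← e]; exact q2

end tour

theorem sub_blk_self {ι γ κ : Type} (lab : ι → κ) (c : γ) (j : κ) :
    sub (blk (fun p : γ × ι => (p.1, lab p.2)) (c, j)) c = blk lab j := by
  funext a; simp [sub, blk]

theorem sub_blk_ne {ι γ κ : Type} (lab : ι → κ) {c i : γ} (j : κ) (h : i ≠ c) :
    sub (blk (fun p : γ × ι => (p.1, lab p.2)) (c, j)) i = fun _ => false := by
  funext a; simp [sub, blk, h]

def Good (m a b w n β : ℕ) : Prop :=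
  ∃ (ι κ : Type) (_ : Fintype ι) (_ : Fintype κ) (lab : ι → κ) (P : ℤ → (ι → Bool) → Prop),
    Fintype.card ι = n ∧ Fintype.card κ = β ∧ Chain P ∧ ¬ P (-m) (fun _ => false) ∧
      (∀ j, P m (blk lab j)) ∧ S0 (P 0) a ∧ S1 (P 0) b ∧ S0 (P 1) w

theorem Good.step {m a b w n β : ℕ} (h : Good (m + 1) a b w n β) (r : ℕ) :
    Good m (w + b) (n + r * a) (n + n) ((2 * r + 1) * n) ((2 * r + 1) * β) := by
  obtain ⟨ι, κ, _, _, lab, P, rfl, rfl, hc, h0, hb, ha, hb1, hw⟩ := h
  obtain ⟨E, hirr, htot, hdeg⟩ := exists_tournament r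
  refine ⟨Fin (2 * r + 1) × ι, Fin (2 * r + 1) × κ, inferInstance, inferInstance,
    fun p => (p.1, lab p.2), tour E P, by simp, by simp, tour_chain hc, ?_, ?_, ?_, ?_, ?_⟩
  · rintro ⟨i, h1, -⟩
    exact h0 (hc.le (by push_cast; omega) h1)
  · rintro ⟨c, j⟩
    refine ⟨c, ?_, fun i hi hP => ?_⟩
    · rw [sub_blk_self]; exact_mod_cast hb j
    · rw [sub_blk_ne _ _ (fun hh : i = c => hirr c (hh ▸ hi))] at hP
      exact h0 (hc.le (by push_cast; omega) hP)
  · exact tour_S0 hc hirr htot le_rfl (by simpa using hw) (by simpa using hb1)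
  · exact tour_S1 hirr hdeg ha
  · exact tour_S0 hc hirr htot zero_le_one (S0_triv _) (S1_triv _)

theorem good_base (m : ℕ) : Good m (2 * m + 1) (2 * m + 1) (2 * m + 1) (2 * m + 1) 1 := by
  refine ⟨Fin (2 * m + 1), Unit, inferInstance, inferInstance, fun _ => (),
    fun t x => t + m + 1 ≤ ((univ.filter fun i => x i = true).card : ℤ), by simp, by simp,
    ⟨fun t x h => by omega, fun t x a h => ?_⟩, by simp, fun j => ?_, ?_, ?_, ?_⟩
  · have : (univ.filter fun i => x i = true) ⊆ insert a (univ.filter fun i => fl x a i = true) := by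
      intro i hi
      rw [mem_insert]
      by_cases hia : i = a
      · exact Or.inl hia
      · right
        simpa [fl_ne _ hia] using hi
    have := (card_le_card this).trans (card_insert_le _ _)
    omega
  · simp [blk]; omega
  · simpa using S0_triv (ι := Fin (2 * m + 1)) _
  · simpa using S1_triv (ι := Fin (2 * m + 1)) _
  · simpa using S0_triv (ι := Fin (2 * m + 1)) _

/-- parameters `(a, b, w, n, β)` after `d` tournament levels -/
def par (m : ℕ) : ℕ → ℕ × ℕ × ℕ × ℕ × ℕ
  | 0 => (2 * m + 1, 2 * m + 1, 2 * m + 1, 2 * m + 1, 1)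
  | d + 1 =>
    let p := par m d
    (p.2.2.1 + p.2.1, p.2.2.2.1 + (10 * p.2.2.2.1) * p.1, p.2.2.2.1 + p.2.2.2.1,
      (2 * (10 * p.2.2.2.1) + 1) * p.2.2.2.1, (2 * (10 * p.2.2.2.1) + 1) * p.2.2.2.2)

theorem good_par (m d : ℕ) (hd : d ≤ m) : Good (m - d) (par m d).1 (par m d).2.1 (par m d).2.2.1
    (par m d).2.2.2.1 (par m d).2.2.2.2 := by
  induction d with
  | zero => exact good_base m
  | succ d ih =>
    have := ih (by omega)
    rw [show m - d = m - (d + 1) + 1 by omega] at this
    exact this.step _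

theorem exists_good : ∃ a b w n β, Good 0 a b w n β ∧ 2 ≤ a ∧ (a + b) * a < β :=
  ⟨_, _, _, _, _, good_par 11 11 le_rfl, by decide +kernel, by decide +kernel⟩

end Crest.Agent.H1Sens
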